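import Vale.Agent.Lib.P089.B.Ba.Cyc1

/-!
# P089 B-a: first moment of the number of short simple closed walks
-/

namespace P089

open scoped Classical

/-- the set of simple closed walks of length less than `g` -/
def SCSet {d N : ℕ} (g : ℕ) (π : Fin d → Equiv.Perm (Fin N)) : Set (BV N × List (Fin d)) :=
  {p | p.2.length < g ∧ SimpCl (pact π) p.1 p.2}

theorem scset_finite {d N : ℕ} (g : ℕ) (π : Fin d → Equiv.Perm (Fin N)) :
    (SCSet g π).Finite := by
  refine ((Set.finite_univ (α := BV N)).prod (List.finite_length_lt (Fin d) g)).subset ?_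
  rintro p ⟨h1, _⟩
  exact ⟨Set.mem_univ _, h1⟩

/-- second coordinates of the walk: first and last given, the others free -/
private def cyc2x {ℓ N : ℕ} (v : BV N) (y : Fin (ℓ - 1) → Fin N) (j : ℕ) : Fin N :=
  if h : 1 ≤ j ∧ j < ℓ then y ⟨j - 1, by omega⟩ else v.2

private theorem cyc2_single {d ℓ N : ℕ} (hℓ : 1 ≤ ℓ) (hN : ℓ ≤ N) (v : BV N)
    (w : Fin ℓ → Fin d) :
    (Finset.univ.filter fun π : Fin d → Equiv.Perm (Fin N) =>
      SimpCl (pact π) v (List.ofFn w)).card * (N - ℓ) ^ ℓ ≤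
      N ^ (ℓ - 1) * N.factorial ^ d := by
  have hsub : (Finset.univ.filter fun π : Fin d → Equiv.Perm (Fin N) =>
      SimpCl (pact π) v (List.ofFn w)) ⊆
      Finset.univ.biUnion fun y : Fin (ℓ - 1) → Fin N =>
        Finset.univ.filter fun π : Fin d → Equiv.Perm (Fin N) =>
          SimpCl (pact π) v (List.ofFn w) ∧
            ∀ j ≤ ℓ, (go (pact π) v ((List.ofFn w).take j)).2 = cyc2x v y j := by
    intro π hπ
    have h1 : SimpCl (pact π) v (List.ofFn w) := (Finset.mem_filter.1 hπ).2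
    refine Finset.mem_biUnion.2 ⟨fun i => (go (pact π) v ((List.ofFn w).take (i.1 + 1))).2,
      Finset.mem_univ _, Finset.mem_filter.2 ⟨Finset.mem_univ _, h1, fun j hj => ?_⟩⟩
    unfold cyc2x
    by_cases h : 1 ≤ j ∧ j < ℓ
    · rw [dif_pos h]
      have h2 : j - 1 + 1 = j := by omega
      simp only [h2]
    · rw [dif_neg h]
      rcases Nat.lt_or_ge j 1 with h3 | h3
      · have h4 : j = 0 := by omega
        rw [h4, List.take_zero]
        rfl
      · have h4 : j = ℓ := by omega
        have h5 : (List.ofFn w).take j = List.ofFn w := by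
          rw [List.take_of_length_le]
          rw [List.length_ofFn, h4]
        rw [h5, h1.closed]
  have hcard := (Finset.card_le_card hsub).trans Finset.card_biUnion_le
  calc _ ≤ (∑ y : Fin (ℓ - 1) → Fin N,
        (Finset.univ.filter fun π : Fin d → Equiv.Perm (Fin N) =>
          SimpCl (pact π) v (List.ofFn w) ∧
            ∀ j ≤ ℓ, (go (pact π) v ((List.ofFn w).take j)).2 = cyc2x v y j).card) *
          (N - ℓ) ^ ℓ := Nat.mul_le_mul_right _ hcard
    _ = ∑ y : Fin (ℓ - 1) → Fin N,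
        (Finset.univ.filter fun π : Fin d → Equiv.Perm (Fin N) =>
          SimpCl (pact π) v (List.ofFn w) ∧
            ∀ j ≤ ℓ, (go (pact π) v ((List.ofFn w).take j)).2 = cyc2x v y j).card *
          (N - ℓ) ^ ℓ := Finset.sum_mul _ _ _
    _ ≤ ∑ _y : Fin (ℓ - 1) → Fin N, N.factorial ^ d :=
        Finset.sum_le_sum fun y _ => cyc_single hℓ hN w v (cyc2x v y)
    _ = N ^ (ℓ - 1) * N.factorial ^ d := by
        rw [Finset.sum_const, Finset.card_univ, Fintype.card_fun, Fintype.card_fin,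
          Fintype.card_fin, smul_eq_mul]

/-- length `ℓ` exactly: sum of `cyc_single` over `w`, the starting vertex `v` (side 2, `N` points)
and the `ℓ - 1` other second coordinates: `2 N^ℓ d^ℓ (N!)^d / (N-ℓ)^ℓ ≤ 2 (2d)^ℓ (N!)^d` for
`2 ℓ ≤ N` -/
theorem cyc_length {d ℓ N : ℕ} (hℓ : 1 ≤ ℓ) (hN : 2 * ℓ ≤ N) :
    ∑ π : Fin d → Equiv.Perm (Fin N),
      {p : BV N × (Fin ℓ → Fin d) | SimpCl (pact π) p.1 (List.ofFn p.2)}.ncard ≤
      2 * (2 * d) ^ ℓ * N.factorial ^ d := by
  have h1 : ∀ π : Fin d → Equiv.Perm (Fin N),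
      {p : BV N × (Fin ℓ → Fin d) | SimpCl (pact π) p.1 (List.ofFn p.2)}.ncard =
      (Finset.univ.filter fun p : BV N × (Fin ℓ → Fin d) =>
        SimpCl (pact π) p.1 (List.ofFn p.2)).card := by
    intro π
    rw [← Set.ncard_coe_finset]
    congr 1
    ext p
    simp
  have h2 : ∑ π : Fin d → Equiv.Perm (Fin N),
      {p : BV N × (Fin ℓ → Fin d) | SimpCl (pact π) p.1 (List.ofFn p.2)}.ncard =
      ∑ p : BV N × (Fin ℓ → Fin d), (Finset.univ.filter fun π : Fin d → Equiv.Perm (Fin N) =>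
        SimpCl (pact π) p.1 (List.ofFn p.2)).card := by
    simp only [h1, Finset.card_filter]
    exact Finset.sum_comm
  have hpos : 0 < (N - ℓ) ^ ℓ := pow_pos (by omega) _
  refine Nat.le_of_mul_le_mul_right ?_ hpos
  rw [h2, Finset.sum_mul]
  calc ∑ p : BV N × (Fin ℓ → Fin d), (Finset.univ.filter fun π : Fin d → Equiv.Perm (Fin N) =>
        SimpCl (pact π) p.1 (List.ofFn p.2)).card * (N - ℓ) ^ ℓ
      ≤ ∑ _p : BV N × (Fin ℓ → Fin d), N ^ (ℓ - 1) * N.factorial ^ d :=
        Finset.sum_le_sum fun p _ => cyc2_single hℓ (by omega) p.1 p.2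
    _ = (2 * N * d ^ ℓ) * (N ^ (ℓ - 1) * N.factorial ^ d) := by
        rw [Finset.sum_const, Finset.card_univ, Fintype.card_prod, Fintype.card_prod,
          Fintype.card_bool, Fintype.card_fun, Fintype.card_fin, Fintype.card_fin,
          Fintype.card_fin, smul_eq_mul]
    _ = 2 * d ^ ℓ * N.factorial ^ d * (N * N ^ (ℓ - 1)) := by ring
    _ = 2 * d ^ ℓ * N.factorial ^ d * N ^ ℓ := by
        rw [← pow_succ', Nat.sub_add_cancel hℓ]
    _ ≤ 2 * d ^ ℓ * N.factorial ^ d * (2 * (N - ℓ)) ^ ℓ :=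
        Nat.mul_le_mul_left _ (Nat.pow_le_pow_left (by omega) _)
    _ = 2 * (2 * d) ^ ℓ * N.factorial ^ d * (N - ℓ) ^ ℓ := by
        rw [mul_pow, mul_pow]
        ring

/-- sum over `1 ≤ ℓ < g`, `Σ_{ℓ<g} (2d)^ℓ ≤ (2d)^g` -/
theorem cyc_count {d : ℕ} (hd : 1 ≤ d) (g N : ℕ) (hN : 2 * g ≤ N) :
    ∑ π : Fin d → Equiv.Perm (Fin N), (SCSet g π).ncard ≤
      2 * (2 * d) ^ g * N.factorial ^ d := by
  induction g with
  | zero =>
    have h1 : ∀ π : Fin d → Equiv.Perm (Fin N), (SCSet 0 π).ncard = 0 := by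
      intro π
      have h2 : SCSet 0 π = ∅ := by
        ext p
        simp [SCSet]
      rw [h2, Set.ncard_empty]
    simp [h1]
  | succ g ih =>
    have ih' := ih (by omega)
    have hstep : ∀ π : Fin d → Equiv.Perm (Fin N), (SCSet (g + 1) π).ncard ≤
        (SCSet g π).ncard +
          {p : BV N × (Fin g → Fin d) | SimpCl (pact π) p.1 (List.ofFn p.2)}.ncard := by
      intro π
      have h1 : SCSet (g + 1) π ⊆ SCSet g π ∪
          (fun p : BV N × (Fin g → Fin d) => (p.1, List.ofFn p.2)) ''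
            {p : BV N × (Fin g → Fin d) | SimpCl (pact π) p.1 (List.ofFn p.2)} := by
        rintro ⟨v, w⟩ ⟨h2, h3⟩
        simp only at h2 h3
        rcases Nat.lt_or_ge w.length g with h4 | h4
        · exact Or.inl ⟨h4, h3⟩
        · right
          have h5 : w.length = g := by omega
          subst h5
          refine ⟨(v, fun i => w.get i), ?_, ?_⟩
          · change SimpCl (pact π) v (List.ofFn fun i => w.get i)
            rw [List.ofFn_get]
            exact h3
          · change (v, List.ofFn fun i => w.get i) = (v, w)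
            rw [List.ofFn_get]
      have hfin : {p : BV N × (Fin g → Fin d) | SimpCl (pact π) p.1 (List.ofFn p.2)}.Finite :=
        Set.toFinite _
      refine (Set.ncard_le_ncard h1 ((scset_finite g π).union (hfin.image _))).trans ?_
      refine (Set.ncard_union_le _ _).trans ?_
      exact Nat.add_le_add_left (Set.ncard_image_le hfin) _
    have hA : ∑ π : Fin d → Equiv.Perm (Fin N),
        {p : BV N × (Fin g → Fin d) | SimpCl (pact π) p.1 (List.ofFn p.2)}.ncard ≤
        2 * (2 * d) ^ g * N.factorial ^ d := by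
      rcases Nat.eq_zero_or_pos g with h0 | h0
      · subst h0
        have h1 : ∀ π : Fin d → Equiv.Perm (Fin N),
            {p : BV N × (Fin 0 → Fin d) | SimpCl (pact π) p.1 (List.ofFn p.2)}.ncard = 0 := by
          intro π
          have h2 : {p : BV N × (Fin 0 → Fin d) | SimpCl (pact π) p.1 (List.ofFn p.2)} = ∅ := by
            refine Set.eq_empty_iff_forall_notMem.2 fun p hp => ?_
            exact hp.ne (List.ofFn_zero)
          rw [h2, Set.ncard_empty]
        rw [Finset.sum_congr rfl fun π _ => h1 π, Finset.sum_const_zero]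
        exact Nat.zero_le _
      · exact cyc_length h0 (by omega)
    calc ∑ π : Fin d → Equiv.Perm (Fin N), (SCSet (g + 1) π).ncard
        ≤ ∑ π : Fin d → Equiv.Perm (Fin N), ((SCSet g π).ncard +
          {p : BV N × (Fin g → Fin d) | SimpCl (pact π) p.1 (List.ofFn p.2)}.ncard) :=
          Finset.sum_le_sum fun π _ => hstep π
      _ = _ := Finset.sum_add_distrib
      _ ≤ 2 * (2 * d) ^ g * N.factorial ^ d + 2 * (2 * d) ^ g * N.factorial ^ d :=
          Nat.add_le_add ih' hA
      _ = 2 * (2 * d) ^ g * N.factorial ^ d * 2 := by ring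
      _ ≤ 2 * (2 * d) ^ g * N.factorial ^ d * (2 * d) := Nat.mul_le_mul_left _ (by omega)
      _ = 2 * (2 * d) ^ (g + 1) * N.factorial ^ d := by
          rw [pow_succ]
          ring

end P089
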