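import Vale.Agent.Lib.P089.B.Ba.Exp2
import Vale.Agent.Lib.P089.B.Ba.Cyc2

/-!
# P089 B-a: conclusion
-/

namespace P089

open scoped Classical

/-- Markov's inequality for finite counting -/
private theorem Main_markov {ι : Type} [Fintype ι] (f : ι → ℕ) (K M : ℕ)
    (h : ∑ x, f x ≤ M) : (Finset.univ.filter fun x => K < f x).card * K ≤ M := by
  refine le_trans ?_ h
  calc (Finset.univ.filter fun x => K < f x).card * K
      = ∑ _x ∈ Finset.univ.filter (fun x => K < f x), K := by
        rw [Finset.sum_const, smul_eq_mul]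
    _ ≤ ∑ x ∈ Finset.univ.filter (fun x => K < f x), f x :=
        Finset.sum_le_sum fun x hx => (Finset.mem_filter.1 hx).2.le
    _ ≤ ∑ x, f x := Finset.sum_le_sum_of_subset (Finset.filter_subset _ _)

/-- the inverses of a random tuple are a random tuple -/
private theorem Main_inv (N : ℕ) (P : (Fin 32 → Equiv.Perm (Fin N)) → Prop) :
    (Finset.univ.filter fun π : Fin 32 → Equiv.Perm (Fin N) => P (fun i => (π i)⁻¹)).card =
      (Finset.univ.filter fun π : Fin 32 → Equiv.Perm (Fin N) => P π).card := by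
  refine Finset.card_bij (fun π _ => fun i => (π i)⁻¹) ?_ ?_ ?_
  · intro π hπ
    rw [Finset.mem_filter] at hπ ⊢
    exact ⟨Finset.mem_univ _, hπ.2⟩
  · intro π _ π' _ h
    funext i
    have := congrFun h i
    exact inv_injective this
  · intro π hπ
    refine ⟨fun i => (π i)⁻¹, ?_, ?_⟩
    · rw [Finset.mem_filter] at hπ ⊢
      refine ⟨Finset.mem_univ _, ?_⟩
      simp only [inv_inv]
      exact hπ.2
    · funext i
      exact inv_inv _

/-- `d = 32`, `h = 1/304`.  Among the `(N!)^32` tuples at most `1/8` are bad, at most `1/8` have bad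
inverses (the bijection `π ↦ π⁻¹`), and at most `1/4` have more than `8 * 64^g` short simple closed
walks (`cyc_count`, Markov). -/
theorem partBa : PartBa := by
  refine ⟨32, 1 / 304, by norm_num, by norm_num, fun g N _ hN => ?_⟩
  have hcard : (Finset.univ : Finset (Fin 32 → Equiv.Perm (Fin N))).card = N.factorial ^ 32 := by
    rw [Finset.card_univ, Fintype.card_fun, Fintype.card_perm, Fintype.card_fin, Fintype.card_fin]
  have hT : 0 < N.factorial ^ 32 := pow_pos (Nat.factorial_pos N) 32
  have h1 := bad_count N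
  have h2 : (Finset.univ.filter fun π : Fin 32 → Equiv.Perm (Fin N) =>
        ∃ A B, BadPair (fun i => (π i)⁻¹) A B).card =
      (Finset.univ.filter fun π : Fin 32 → Equiv.Perm (Fin N) => ∃ A B, BadPair π A B).card := by
    convert Main_inv N (fun π => ∃ A B, BadPair π A B)
  have h3 := Main_markov (fun π : Fin 32 → Equiv.Perm (Fin N) => (SCSet g π).ncard)
    (8 * (2 * 32) ^ g) _ (cyc_count (by norm_num) g N hN)
  have h4 : (Finset.univ.filter fun π : Fin 32 → Equiv.Perm (Fin N) =>
      8 * (2 * 32) ^ g < (SCSet g π).ncard).card * 4 ≤ N.factorial ^ 32 := by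
    have hp : 0 < 2 * (2 * 32) ^ g := by positivity
    refine Nat.le_of_mul_le_mul_left ?_ hp
    refine le_trans (le_of_eq ?_) h3
    ring
  by_contra hcon
  push Not at hcon
  have hcov : (Finset.univ : Finset (Fin 32 → Equiv.Perm (Fin N))) ⊆
      (Finset.univ.filter fun π : Fin 32 → Equiv.Perm (Fin N) => ∃ A B, BadPair π A B) ∪
      ((Finset.univ.filter fun π : Fin 32 → Equiv.Perm (Fin N) =>
        ∃ A B, BadPair (fun i => (π i)⁻¹) A B) ∪
      (Finset.univ.filter fun π : Fin 32 → Equiv.Perm (Fin N) =>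
        8 * (2 * 32) ^ g < (SCSet g π).ncard)) := by
    intro π _
    rw [Finset.mem_union, Finset.mem_union, Finset.mem_filter, Finset.mem_filter,
      Finset.mem_filter]
    by_contra hno
    push Not at hno
    obtain ⟨n1, n2, n3⟩ := hno
    have m1 : ¬ ∃ A B, BadPair π A B := fun ⟨A, B, hAB⟩ => n1 (Finset.mem_univ _) A B hAB
    have m2 : ¬ ∃ A B, BadPair (fun i => (π i)⁻¹) A B :=
      fun ⟨A, B, hAB⟩ => n2 (Finset.mem_univ _) A B hAB
    have m3 := n3 (Finset.mem_univ _)
    obtain ⟨v, w, hw1, hw2, hw3⟩ := hcon π (pexp_of_noBad π m1 m2) (scset_finite g π).toFinset (by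
      rw [← Set.ncard_eq_toFinset_card _ (scset_finite g π)]
      exact m3)
    exact hw3 ((scset_finite g π).mem_toFinset.2 ⟨hw1, hw2⟩)
  have h5 := (Finset.card_le_card hcov).trans ((Finset.card_union_le _ _).trans
    (Nat.add_le_add_left (Finset.card_union_le _ _) _))
  rw [hcard, h2] at h5
  omega

end P089
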