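import Vale.Agent.Lib.P089.B.Ba.Perm
import Vale.Agent.Lib.P089.B.BaDefs

/-!
# P089 B-a: the probability of a given simple closed walk
-/

namespace P089

open scoped Classical

private theorem Cyc1_side {d N : ℕ} (π : Fin d → Equiv.Perm (Fin N)) (L : List (Fin d)) :
    ∀ v : BV N, (go (pact π) v L).1 = (not^[L.length]) v.1 := by
  induction L with
  | nil => intro v; rfl
  | cons s L ih =>
    intro v
    have h1 : go (pact π) v (s :: L) = go (pact π) (pact π v s) L := rfl
    rw [h1, ih, List.length_cons, Function.iterate_succ_apply]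
    rfl

private theorem Cyc1_step {d ℓ N : ℕ} (π : Fin d → Equiv.Perm (Fin N)) (w : Fin ℓ → Fin d)
    (v : BV N) (j : Fin ℓ) :
    go (pact π) v ((List.ofFn w).take (j + 1)) =
      pact π (go (pact π) v ((List.ofFn w).take j)) (w j) := by
  have hj : (j : ℕ) < (List.ofFn w).length := by rw [List.length_ofFn]; exact j.2
  rw [List.take_succ_eq_append_getElem hj]
  unfold go
  rw [List.foldl_append]
  simp only [List.foldl_cons, List.foldl_nil, List.getElem_ofFn, Fin.eta]

/-- the side of the `j`-th vertex -/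
private def Cyc1_sd (b : Bool) (j : ℕ) : Bool := (not^[j]) b

private theorem Cyc1_sd_succ (b : Bool) (j : ℕ) : Cyc1_sd b (j + 1) = !Cyc1_sd b j :=
  Function.iterate_succ_apply' _ _ _

/-- (left end, right end) of the step `j` -/
private def Cyc1_p {N : ℕ} (b : Bool) (x : ℕ → Fin N) (j : ℕ) : Fin N × Fin N :=
  if Cyc1_sd b j = true then (x (j + 1), x j) else (x j, x (j + 1))

private theorem Cyc1_vert {d ℓ N : ℕ} {π : Fin d → Equiv.Perm (Fin N)} {w : Fin ℓ → Fin d}
    {v : BV N} {x : ℕ → Fin N}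
    (hx : ∀ j ≤ ℓ, (go (pact π) v ((List.ofFn w).take j)).2 = x j) {j : ℕ} (hj : j ≤ ℓ) :
    go (pact π) v ((List.ofFn w).take j) = (Cyc1_sd v.1 j, x j) := by
  refine Prod.ext ?_ (hx j hj)
  rw [Cyc1_side, List.length_take, List.length_ofFn, min_eq_left hj]
  rfl

private theorem Cyc1_cond {d ℓ N : ℕ} {π : Fin d → Equiv.Perm (Fin N)} {w : Fin ℓ → Fin d}
    {v : BV N} {x : ℕ → Fin N}
    (hx : ∀ j ≤ ℓ, (go (pact π) v ((List.ofFn w).take j)).2 = x j) (j : Fin ℓ) :
    π (w j) (Cyc1_p v.1 x j).1 = (Cyc1_p v.1 x j).2 := by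
  have h1 := Cyc1_step π w v j
  rw [Cyc1_vert hx j.2, Cyc1_vert hx j.2.le] at h1
  have h2 := congrArg Prod.snd h1
  simp only [pact] at h2
  unfold Cyc1_p
  by_cases hs : Cyc1_sd v.1 j = true
  · rw [if_pos hs] at h2 ⊢
    simp only
    rw [h2, Equiv.apply_symm_apply]
  · rw [if_neg hs] at h2 ⊢
    simp only
    rw [h2]

private theorem Cyc1_inj {d ℓ N : ℕ} {π : Fin d → Equiv.Perm (Fin N)} {w : Fin ℓ → Fin d}
    {v : BV N} {x : ℕ → Fin N} (hc : SimpCl (pact π) v (List.ofFn w))
    (hx : ∀ j ≤ ℓ, (go (pact π) v ((List.ofFn w).take j)).2 = x j) {i j : Fin ℓ} (hij : i < j)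
    (hw : w i = w j) (hp : Cyc1_p v.1 x i = Cyc1_p v.1 x j) : False := by
  have hij' : (i : ℕ) < j := hij
  have key : ∀ a b : ℕ, a < b → b < ℓ →
      (Cyc1_sd v.1 a, x a) ≠ (Cyc1_sd v.1 b, x b) := by
    intro a b hab hb
    have h1 := hc.inj a b hab (by rw [List.length_ofFn]; exact hb)
    rwa [Cyc1_vert hx (hab.trans hb).le, Cyc1_vert hx hb.le] at h1
  -- the end of the step `i` is not the vertex `j`
  have key2 : (Cyc1_sd v.1 (i + 1), x (i + 1)) = (Cyc1_sd v.1 j, x j) → False := by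
    intro h1
    rcases Nat.lt_or_ge (i + 1) j with h2 | h2
    · exact key _ _ h2 j.2 h1
    · have h3 : (i : ℕ) + 1 = j := le_antisymm (Nat.succ_le_of_lt hij') h2
      have h4 : (i : ℕ) + 1 < ℓ := by rw [h3]; exact j.2
      have h5 := List.isChain_ofFn.1 hc.red i h4
      apply h5
      have e1 : (⟨i, Nat.lt_of_succ_lt h4⟩ : Fin ℓ) = i := rfl
      have e2 : (⟨i + 1, h4⟩ : Fin ℓ) = j := Fin.ext h3
      rw [e2]
      exact hw
  unfold Cyc1_p at hp
  by_cases hsi : Cyc1_sd v.1 i = true <;> by_cases hsj : Cyc1_sd v.1 j = true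
  · rw [if_pos hsi, if_pos hsj] at hp
    refine key i j hij' j.2 (Prod.ext (hsi.trans hsj.symm) ?_)
    exact (Prod.ext_iff.1 hp).2
  · rw [if_pos hsi, if_neg hsj] at hp
    refine key2 (Prod.ext ?_ (Prod.ext_iff.1 hp).1)
    show Cyc1_sd v.1 (i + 1) = Cyc1_sd v.1 j
    rw [Cyc1_sd_succ, hsi]
    exact (Bool.eq_false_iff.2 hsj).symm
  · rw [if_neg hsi, if_pos hsj] at hp
    refine key2 (Prod.ext ?_ (Prod.ext_iff.1 hp).2)
    show Cyc1_sd v.1 (i + 1) = Cyc1_sd v.1 j
    rw [Cyc1_sd_succ, Bool.eq_false_iff.2 hsi, hsj]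
    rfl
  · rw [if_neg hsi, if_neg hsj] at hp
    refine key i j hij' j.2 (Prod.ext ?_ ?_)
    · show Cyc1_sd v.1 i = Cyc1_sd v.1 j
      rw [Bool.eq_false_iff.2 hsi, Bool.eq_false_iff.2 hsj]
    · exact (Prod.ext_iff.1 hp).1

private theorem Cyc1_fact {N k ℓ : ℕ} (hk : k ≤ ℓ) (hN : ℓ ≤ N) :
    (N - k).factorial * (N - ℓ) ^ k ≤ N.factorial := by
  have h1 := Nat.factorial_mul_pow_sub_le_factorial (Nat.sub_le N k)
  have h2 : N - (N - k) = k := Nat.sub_sub_self (hk.trans hN)
  rw [h2] at h1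
  refine le_trans (Nat.mul_le_mul_left _ (Nat.pow_le_pow_left ?_ k)) h1
  exact Nat.sub_le_sub_left hk N

/-- tuples of permutations for which `w` is a simple closed walk through the given vertices
(`x j` = second coordinate of the `j`-th vertex; the side of the `j`-th vertex alternates).
For each colour `i` let `T i` be the set of the pairs (left end, right end) of the steps `j` with
`w j = i`; `Σ_i |T i| = ℓ` because two steps with the same colour and the same two ends can only
occur for `ℓ = 2`, `w = [i,i]`, which is not reduced.  `perm_rel_count` gives at most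
`Π_i (N - |T i|)!`, and `(N - k)! (N - ℓ)^k ≤ N!` for `k ≤ ℓ`
(`Nat.factorial_mul_pow_sub_le_factorial`). -/
theorem cyc_single {d ℓ N : ℕ} (hℓ : 1 ≤ ℓ) (hN : ℓ ≤ N) (w : Fin ℓ → Fin d) (v : BV N)
    (x : ℕ → Fin N) :
    (Finset.univ.filter fun π : Fin d → Equiv.Perm (Fin N) =>
      SimpCl (pact π) v (List.ofFn w) ∧
        ∀ j ≤ ℓ, (go (pact π) v ((List.ofFn w).take j)).2 = x j).card * (N - ℓ) ^ ℓ ≤
      N.factorial ^ d := by
  rcases (Finset.univ.filter fun π : Fin d → Equiv.Perm (Fin N) =>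
      SimpCl (pact π) v (List.ofFn w) ∧
        ∀ j ≤ ℓ, (go (pact π) v ((List.ofFn w).take j)).2 = x j).eq_empty_or_nonempty with h | h
  · rw [h, Finset.card_empty, Nat.zero_mul]
    exact Nat.zero_le _
  · obtain ⟨π₀, hπ₀⟩ := h
    obtain ⟨-, hc, hx⟩ := Finset.mem_filter.1 hπ₀
    set T : Fin d → Finset (Fin N × Fin N) := fun c =>
      (Finset.univ.filter fun j : Fin ℓ => w j = c).image fun j : Fin ℓ => Cyc1_p v.1 x j with hT
    have hTc : ∀ c, (T c).card = (Finset.univ.filter fun j : Fin ℓ => w j = c).card := by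
      intro c
      refine Finset.card_image_of_injOn ?_
      intro i hi j hj hij
      have hi' : w i = c := (Finset.mem_filter.1 (Finset.mem_coe.1 hi)).2
      have hj' : w j = c := (Finset.mem_filter.1 (Finset.mem_coe.1 hj)).2
      rcases lt_trichotomy i j with h1 | h1 | h1
      · exact (Cyc1_inj hc hx h1 (hi'.trans hj'.symm) hij).elim
      · exact h1
      · exact (Cyc1_inj hc hx h1 (hj'.trans hi'.symm) hij.symm).elim
    have hsum : ∑ c, (T c).card = ℓ := by
      rw [Finset.sum_congr rfl fun c _ => hTc c,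
        ← Finset.card_eq_sum_card_fiberwise (f := w) (s := Finset.univ) (t := Finset.univ)
          (fun _ _ => Finset.mem_coe.2 (Finset.mem_univ _)), Finset.card_univ, Fintype.card_fin]
    have hle : ∀ c, (T c).card ≤ ℓ := fun c => by
      rw [← hsum]
      exact Finset.single_le_sum (f := fun c => (T c).card) (fun _ _ => Nat.zero_le _)
        (Finset.mem_univ c)
    have hsub : (Finset.univ.filter fun π : Fin d → Equiv.Perm (Fin N) =>
        SimpCl (pact π) v (List.ofFn w) ∧
          ∀ j ≤ ℓ, (go (pact π) v ((List.ofFn w).take j)).2 = x j) ⊆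
        Fintype.piFinset fun c => Finset.univ.filter fun σ : Equiv.Perm (Fin N) =>
          ∀ p ∈ T c, σ p.1 = p.2 := by
      intro π hπ
      obtain ⟨-, -, hx'⟩ := Finset.mem_filter.1 hπ
      refine Fintype.mem_piFinset.2 fun c => Finset.mem_filter.2 ⟨Finset.mem_univ _, ?_⟩
      intro p hp
      obtain ⟨j, hj, rfl⟩ := Finset.mem_image.1 hp
      have hj' : w j = c := (Finset.mem_filter.1 hj).2
      rw [← hj']
      exact Cyc1_cond hx' j
    calc _ ≤ (∏ c, (N - (T c).card).factorial) * (N - ℓ) ^ ℓ := by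
          refine Nat.mul_le_mul_right _ ((Finset.card_le_card hsub).trans ?_)
          rw [Fintype.card_piFinset]
          exact Finset.prod_le_prod' fun c _ => perm_rel_count (T c)
      _ = ∏ c, ((N - (T c).card).factorial * (N - ℓ) ^ (T c).card) := by
          rw [Finset.prod_mul_distrib, Finset.prod_pow_eq_pow_sum, hsum]
      _ ≤ ∏ _c : Fin d, N.factorial :=
          Finset.prod_le_prod' fun c _ => Cyc1_fact (hle c) hN
      _ = N.factorial ^ d := by
          rw [Finset.prod_const, Finset.card_univ, Fintype.card_fin]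

end P089
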