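import Mathlib

/-!
# P089 B-a: numerical estimate for the union bound
-/

namespace P089

/-- `C(n,k) ≤ (3n/k)^k` (`Nat.choose_le_pow_div`, `Real.pow_div_factorial_le_exp`,
`Real.exp_one_lt_d9`) -/
theorem choose_le_three {n k : ℕ} (hk : 1 ≤ k) :
    (n.choose k : ℝ) ≤ (3 * n / k) ^ k := by
  have hk0 : (0 : ℝ) < k := by exact_mod_cast hk
  have h1 : (n.choose k : ℝ) ≤ (n : ℝ) ^ k / (k.factorial : ℝ) := Nat.choose_le_pow_div k n
  have h2 : (k : ℝ) ^ k / (k.factorial : ℝ) ≤ Real.exp k :=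
    Real.pow_div_factorial_le_exp (k : ℝ) hk0.le k
  have h3 : Real.exp k ≤ 3 ^ k := by
    have e : Real.exp (k : ℝ) = Real.exp 1 ^ k := by
      rw [← Real.exp_nat_mul, mul_one]
    rw [e]
    exact pow_le_pow_left₀ (Real.exp_pos 1).le (by linarith [Real.exp_one_lt_d9]) k
  have hf : (0 : ℝ) < (k.factorial : ℝ) := by positivity
  have hkk : (0 : ℝ) < (k : ℝ) ^ k := by positivity
  have h4 : 1 / (k.factorial : ℝ) ≤ 3 ^ k / (k : ℝ) ^ k := by
    rw [div_le_div_iff₀ hf hkk, one_mul]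
    have h5 := (div_le_iff₀ hf).1 (h2.trans h3)
    exact h5
  calc (n.choose k : ℝ) ≤ (n : ℝ) ^ k / (k.factorial : ℝ) := h1
    _ = (n : ℝ) ^ k * (1 / (k.factorial : ℝ)) := by ring
    _ ≤ (n : ℝ) ^ k * (3 ^ k / (k : ℝ) ^ k) := mul_le_mul_of_nonneg_left h4 (by positivity)
    _ = (3 * n / k) ^ k := by
      rw [div_pow, mul_pow]
      ring

/-- `C(N,a) ≤ (3N/a)^a ≤ (3.3 N/b)^a`, `C(N,b) ≤ (3N/b)^b ≤ (3N/b)^(2a)`; the product is at most
`(29.7 * 1849 * (b/N)^27)^a` and `b/N ≤ 11/21`, `29.7 * 1849 * (11/21)^27 ≤ 1/100` -/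
theorem pair_bound {N a b : ℕ} (ha : 1 ≤ a) (hab : a ≤ b) (hba : 10 * b ≤ 11 * a)
    (hN : a + b ≤ N) :
    (N.choose a : ℝ) * (N.choose b) * (1849 ^ a * ((b : ℝ) / N) ^ (30 * a)) ≤ (1 / 100) ^ a := by
  have ha0 : (0 : ℝ) < a := by exact_mod_cast ha
  have hb0 : (0 : ℝ) < b := by exact_mod_cast (lt_of_lt_of_le ha hab)
  have hNn : 0 < N := by omega
  have hN0 : (0 : ℝ) < N := by exact_mod_cast hNn
  obtain ⟨x, hx⟩ : ∃ x : ℝ, x = (b : ℝ) / N := ⟨_, rfl⟩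
  have hx0 : 0 < x := by
    rw [hx]
    positivity
  have hba' : 10 * (b : ℝ) ≤ 11 * a := by exact_mod_cast hba
  have hN' : (a : ℝ) + b ≤ N := by exact_mod_cast hN
  have hx1 : x ≤ 11 / 21 := by
    rw [hx, div_le_div_iff₀ hN0 (by norm_num)]
    linarith
  have h1 : (N.choose a : ℝ) ≤ (33 / 10 / x) ^ a := by
    refine (choose_le_three ha).trans (pow_le_pow_left₀ (by positivity) ?_ a)
    rw [hx, div_div_eq_mul_div, div_le_div_iff₀ ha0 hb0]
    nlinarith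
  have h2 : (N.choose b : ℝ) ≤ ((3 / x) ^ 2) ^ a := by
    refine (choose_le_three (lt_of_lt_of_le ha hab)).trans ?_
    have e : 3 * (N : ℝ) / b = 3 / x := by
      rw [hx, div_div_eq_mul_div]
    rw [e, ← pow_mul]
    apply pow_le_pow_right₀
    · rw [le_div_iff₀ hx0]
      linarith
    · omega
  have h3 : 33 / 10 / x * (3 / x) ^ 2 * (1849 * x ^ 30) ≤ 1 / 100 := by
    have e : 33 / 10 / x * (3 / x) ^ 2 * (1849 * x ^ 30) = 297 / 10 * 1849 * x ^ 27 := by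
      field_simp
      ring
    rw [e]
    have h4 : x ^ 27 ≤ (11 / 21) ^ 27 := pow_le_pow_left₀ hx0.le hx1 27
    have h5 : (297 : ℝ) / 10 * 1849 * (11 / 21) ^ 27 ≤ 1 / 100 := by norm_num
    nlinarith
  rw [← hx]
  calc (N.choose a : ℝ) * (N.choose b) * (1849 ^ a * x ^ (30 * a))
      ≤ (33 / 10 / x) ^ a * ((3 / x) ^ 2) ^ a * (1849 ^ a * x ^ (30 * a)) := by
        gcongr
    _ = (33 / 10 / x * (3 / x) ^ 2 * (1849 * x ^ 30)) ^ a := by
        rw [mul_pow, mul_pow, mul_pow, pow_mul x 30 a]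
    _ ≤ (1 / 100) ^ a := pow_le_pow_left₀ (by positivity) h3 a

/-- summation: for each `a` there are at most `a` values of `b`, `Σ a 100^(-a) ≤ 1/8` -/
theorem pair_sum (N : ℕ) :
    ∑ a ∈ Finset.range (N + 1), ∑ b ∈ Finset.range (N + 1),
      (if 1 ≤ a ∧ a ≤ b ∧ 10 * b ≤ 11 * a ∧ a + b ≤ N then
        (N.choose a : ℝ) * (N.choose b) * (1849 ^ a * ((b : ℝ) / N) ^ (30 * a)) else 0) ≤
      1 / 8 := by
  have h1 : ∀ a ∈ Finset.range (N + 1), ∑ b ∈ Finset.range (N + 1),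
      (if 1 ≤ a ∧ a ≤ b ∧ 10 * b ≤ 11 * a ∧ a + b ≤ N then
        (N.choose a : ℝ) * (N.choose b) * (1849 ^ a * ((b : ℝ) / N) ^ (30 * a)) else 0) ≤
      1 / 25 * (1 / 2) ^ a := by
    intro a _
    rcases Nat.eq_zero_or_pos a with rfl | ha
    · have h2 : ∑ b ∈ Finset.range (N + 1),
          (if 1 ≤ 0 ∧ 0 ≤ b ∧ 10 * b ≤ 11 * 0 ∧ 0 + b ≤ N then
          (N.choose 0 : ℝ) * (N.choose b) * (1849 ^ 0 * ((b : ℝ) / N) ^ (30 * 0)) else 0) = 0 :=
        Finset.sum_eq_zero fun b _ => if_neg fun h => by omega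
      rw [h2]
      norm_num
    · rw [← Finset.sum_filter]
      have h2 : ((Finset.range (N + 1)).filter
          (fun b => 1 ≤ a ∧ a ≤ b ∧ 10 * b ≤ 11 * a ∧ a + b ≤ N)) ⊆ Finset.Ico a (2 * a) := by
        intro b hb
        obtain ⟨-, h3, h4, h5, -⟩ := Finset.mem_filter.1 hb
        exact Finset.mem_Ico.2 ⟨h4, by omega⟩
      have h3 := Finset.card_le_card h2
      rw [Nat.card_Ico] at h3
      have h4 : ∑ b ∈ (Finset.range (N + 1)).filter
          (fun b => 1 ≤ a ∧ a ≤ b ∧ 10 * b ≤ 11 * a ∧ a + b ≤ N),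
          (N.choose a : ℝ) * (N.choose b) * (1849 ^ a * ((b : ℝ) / N) ^ (30 * a)) ≤
          ((Finset.range (N + 1)).filter
          (fun b => 1 ≤ a ∧ a ≤ b ∧ 10 * b ≤ 11 * a ∧ a + b ≤ N)).card • (1 / 100 : ℝ) ^ a := by
        apply Finset.sum_le_card_nsmul
        intro b hb
        obtain ⟨-, h3, h4, h5, h6⟩ := Finset.mem_filter.1 hb
        exact pair_bound h3 h4 h5 h6
      refine h4.trans ?_
      rw [nsmul_eq_mul]
      have h5 : (((Finset.range (N + 1)).filter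
          (fun b => 1 ≤ a ∧ a ≤ b ∧ 10 * b ≤ 11 * a ∧ a + b ≤ N)).card : ℝ) ≤ 2 ^ a := by
        have h6 : a < 2 ^ a := Nat.lt_two_pow_self
        have h7 : ((Finset.range (N + 1)).filter
          (fun b => 1 ≤ a ∧ a ≤ b ∧ 10 * b ≤ 11 * a ∧ a + b ≤ N)).card ≤ 2 ^ a := by omega
        exact_mod_cast h7
      calc _ ≤ (2 : ℝ) ^ a * (1 / 100) ^ a := mul_le_mul_of_nonneg_right h5 (by positivity)
        _ = (1 / 25) ^ a * (1 / 2) ^ a := by
          rw [← mul_pow, ← mul_pow]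
          norm_num
        _ ≤ 1 / 25 * (1 / 2) ^ a := by
          apply mul_le_mul_of_nonneg_right _ (by positivity)
          calc (1 / 25 : ℝ) ^ a ≤ (1 / 25) ^ 1 :=
                pow_le_pow_of_le_one (by norm_num) (by norm_num) ha
            _ = 1 / 25 := pow_one _
  refine (Finset.sum_le_sum h1).trans ?_
  rw [← Finset.mul_sum]
  have h2 := sum_geometric_two_le (N + 1)
  linarith

end P089
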