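import Vale.Agent.Lib.P089.B.Ba.Tail
import Vale.Agent.Lib.P089.B.Ba.Num
import Vale.Agent.Lib.P089.B.BaDefs

/-!
# P089 B-a: expansion
-/

namespace P089

open scoped Classical

/-- `(A,B)` violates the expansion for all 32 permutations -/
def BadPair {N : ℕ} (π : Fin 32 → Equiv.Perm (Fin N)) (A B : Finset (Fin N)) : Prop :=
  1 ≤ A.card ∧ A.card ≤ B.card ∧ 10 * B.card ≤ 11 * A.card ∧ A.card + B.card ≤ N ∧
    ∀ i, 16 * (A.filter fun x => π i x ∉ B).card < A.card

/-- the numerical conditions on the cardinalities of a bad pair -/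
private def Exp_cond (N a b : ℕ) : Prop := 1 ≤ a ∧ a ≤ b ∧ 10 * b ≤ 11 * a ∧ a + b ≤ N

/-- the set of permutations mapping almost all of `A` into `B` -/
private noncomputable def Exp_good {N : ℕ} (A B : Finset (Fin N)) : Finset (Equiv.Perm (Fin N)) :=
  Finset.univ.filter fun π : Equiv.Perm (Fin N) =>
    16 * (A.filter fun x => π x ∉ B).card < A.card

private theorem Exp_pair {N : ℕ} (A B : Finset (Fin N)) (h : Exp_cond N A.card B.card) :
    (((Exp_good A B).card : ℝ)) ^ 32 ≤
      (N.factorial : ℝ) ^ 32 * (1849 ^ A.card * ((B.card : ℝ) / N) ^ (30 * A.card)) := by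
  have hN : 0 < N := by
    obtain ⟨h1, -, -, h4⟩ := h
    omega
  have hN' : (0 : ℝ) < (N : ℝ) := by exact_mod_cast hN
  have h1 := perm_almost_count A B
  have h2 : (Exp_good A B).card ^ 16 * N ^ (15 * A.card) ≤
      N.factorial ^ 16 * 43 ^ A.card * B.card ^ (15 * A.card) := h1
  have h3 : (((Exp_good A B).card ^ 16 * N ^ (15 * A.card)) ^ 2 : ℕ) ≤
      (N.factorial ^ 16 * 43 ^ A.card * B.card ^ (15 * A.card)) ^ 2 := Nat.pow_le_pow_left h2 2
  have h4 : ((((Exp_good A B).card ^ 16 * N ^ (15 * A.card)) ^ 2 : ℕ) : ℝ) ≤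
      (((N.factorial ^ 16 * 43 ^ A.card * B.card ^ (15 * A.card)) ^ 2 : ℕ) : ℝ) := by
    exact_mod_cast h3
  push_cast at h4
  have e1 : (((Exp_good A B).card : ℝ) ^ 16 * (N : ℝ) ^ (15 * A.card)) ^ 2 =
      ((Exp_good A B).card : ℝ) ^ 32 * (N : ℝ) ^ (30 * A.card) := by
    rw [mul_pow, ← pow_mul, ← pow_mul]
    congr 2
    ring
  have e2 : ((N.factorial : ℝ) ^ 16 * 43 ^ A.card * (B.card : ℝ) ^ (15 * A.card)) ^ 2 =
      (N.factorial : ℝ) ^ 32 * 1849 ^ A.card * (B.card : ℝ) ^ (30 * A.card) := by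
    have h43 : ((43 : ℝ) ^ A.card) ^ 2 = 1849 ^ A.card := by
      rw [← pow_mul, mul_comm, pow_mul]
      norm_num
    rw [mul_pow, mul_pow, ← pow_mul, h43, ← pow_mul]
    congr 2
    ring
  rw [e1, e2] at h4
  rw [div_pow, ← mul_div_assoc, ← mul_div_assoc, le_div_iff₀ (by positivity), ← mul_assoc]
  exact h4

private theorem Exp_union {N : ℕ} :
    (Finset.univ.filter fun π : Fin 32 → Equiv.Perm (Fin N) => ∃ A B, BadPair π A B).card ≤
      ∑ A : Finset (Fin N), ∑ B : Finset (Fin N),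
        if Exp_cond N A.card B.card then (Exp_good A B).card ^ 32 else 0 := by
  have hsub : (Finset.univ.filter fun π : Fin 32 → Equiv.Perm (Fin N) => ∃ A B, BadPair π A B) ⊆
      (Finset.univ : Finset (Finset (Fin N))).biUnion fun A =>
        (Finset.univ : Finset (Finset (Fin N))).biUnion fun B =>
          if Exp_cond N A.card B.card then Fintype.piFinset (fun _ : Fin 32 => Exp_good A B)
          else ∅ := by
    intro π hπ
    obtain ⟨A, B, h1, h2, h3, h4, h5⟩ := (Finset.mem_filter.1 hπ).2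
    refine Finset.mem_biUnion.2 ⟨A, Finset.mem_univ _, Finset.mem_biUnion.2
      ⟨B, Finset.mem_univ _, ?_⟩⟩
    rw [if_pos ⟨h1, h2, h3, h4⟩]
    exact Fintype.mem_piFinset.2 fun i => Finset.mem_filter.2 ⟨Finset.mem_univ _, h5 i⟩
  refine (Finset.card_le_card hsub).trans ?_
  refine Finset.card_biUnion_le.trans (Finset.sum_le_sum fun A _ => ?_)
  refine Finset.card_biUnion_le.trans (Finset.sum_le_sum fun B _ => ?_)
  split_ifs with h
  · rw [Fintype.card_piFinset]
    simp
  · simp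

/-- for fixed `A, B` the number of tuples is the 32nd power of the number of permutations
(`perm_almost_count` squared), at most `(N!)^32 1849^a (b/N)^(30 a)`; sum over `A, B`
(`Finset.card_powersetCard`, `pair_sum`) -/
theorem bad_count (N : ℕ) :
    8 * (Finset.univ.filter fun π : Fin 32 → Equiv.Perm (Fin N) =>
      ∃ A B, BadPair π A B).card ≤ N.factorial ^ 32 := by
  set c := (Finset.univ.filter fun π : Fin 32 → Equiv.Perm (Fin N) =>
      ∃ A B, BadPair π A B).card with hc
  have h1 : (c : ℝ) ≤ ∑ A : Finset (Fin N), ∑ B : Finset (Fin N),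
      if Exp_cond N A.card B.card then ((Exp_good A B).card : ℝ) ^ 32 else 0 := by
    have h := (Nat.cast_le (α := ℝ)).2 (Exp_union (N := N))
    rw [← hc] at h
    refine h.trans (le_of_eq ?_)
    push_cast
    rfl
  let G : ℕ → ℕ → ℝ := fun a b => if Exp_cond N a b then
    (1849 : ℝ) ^ a * ((b : ℝ) / N) ^ (30 * a) else 0
  have h2 : ∑ A : Finset (Fin N), ∑ B : Finset (Fin N),
      (if Exp_cond N A.card B.card then ((Exp_good A B).card : ℝ) ^ 32 else 0) ≤
      ∑ A : Finset (Fin N), ∑ B : Finset (Fin N), (N.factorial : ℝ) ^ 32 * G A.card B.card := by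
    refine Finset.sum_le_sum fun A _ => Finset.sum_le_sum fun B _ => ?_
    by_cases h : Exp_cond N A.card B.card
    · simp only [G, if_pos h]
      exact Exp_pair A B h
    · simp only [G, if_neg h, mul_zero, le_refl]
  have hsum : ∀ g : ℕ → ℝ, ∑ A : Finset (Fin N), g A.card =
      ∑ a ∈ Finset.range (N + 1), (N.choose a : ℝ) * g a := by
    intro g
    have h := Finset.sum_powerset_apply_card g (x := (Finset.univ : Finset (Fin N)))
    rw [Finset.powerset_univ, Finset.card_univ, Fintype.card_fin] at h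
    rw [h]
    refine Finset.sum_congr rfl fun a _ => ?_
    rw [nsmul_eq_mul]
  have h3 : ∑ A : Finset (Fin N), ∑ B : Finset (Fin N), (N.factorial : ℝ) ^ 32 * G A.card B.card =
      (N.factorial : ℝ) ^ 32 * ∑ a ∈ Finset.range (N + 1), ∑ b ∈ Finset.range (N + 1),
        (N.choose a : ℝ) * ((N.choose b : ℝ) * G a b) := by
    have h4 : ∀ A : Finset (Fin N), ∑ B : Finset (Fin N), (N.factorial : ℝ) ^ 32 * G A.card B.card =
        (N.factorial : ℝ) ^ 32 * ∑ b ∈ Finset.range (N + 1), (N.choose b : ℝ) * G A.card b := by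
      intro A
      rw [← Finset.mul_sum, hsum (fun b => G A.card b)]
    rw [Finset.sum_congr rfl fun A _ => h4 A, ← Finset.mul_sum,
      hsum (fun a => ∑ b ∈ Finset.range (N + 1), (N.choose b : ℝ) * G a b)]
    congr 1
    refine Finset.sum_congr rfl fun a _ => ?_
    rw [Finset.mul_sum]
  have h5 : ∑ a ∈ Finset.range (N + 1), ∑ b ∈ Finset.range (N + 1),
        (N.choose a : ℝ) * ((N.choose b : ℝ) * G a b) ≤ 1 / 8 := by
    refine le_trans (le_of_eq ?_) (pair_sum N)
    refine Finset.sum_congr rfl fun a _ => Finset.sum_congr rfl fun b _ => ?_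
    by_cases h : Exp_cond N a b
    · have h' : 1 ≤ a ∧ a ≤ b ∧ 10 * b ≤ 11 * a ∧ a + b ≤ N := h
      simp only [G, if_pos h, if_pos h']
      ring
    · have h' : ¬ (1 ≤ a ∧ a ≤ b ∧ 10 * b ≤ 11 * a ∧ a + b ≤ N) := h
      simp only [G, if_neg h, if_neg h', mul_zero]
  have h6 : (c : ℝ) ≤ (N.factorial : ℝ) ^ 32 * (1 / 8) := by
    refine h1.trans (h2.trans ?_)
    rw [h3]
    exact mul_le_mul_of_nonneg_left h5 (by positivity)
  have h7 : ((8 * c : ℕ) : ℝ) ≤ ((N.factorial ^ 32 : ℕ) : ℝ) := by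
    push_cast
    linarith
  exact_mod_cast h7

end P089
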