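import Vale.Agent.Lib.P089.B.Ba.Exp

/-!
# P089 B-a: expansion, deterministic part
-/

namespace P089

open scoped Classical

/-- indicator of the side `false` -/
private noncomputable def Exp2_al {N : ℕ} (F : Finset (BV N)) (x : Fin N) : ℝ :=
  if (false, x) ∈ F then 1 else 0

/-- indicator of the side `true` -/
private noncomputable def Exp2_be {N : ℕ} (F : Finset (BV N)) (x : Fin N) : ℝ :=
  if (true, x) ∈ F then 1 else 0

private theorem Exp2_al01 {N : ℕ} (F : Finset (BV N)) (x : Fin N) :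
    0 ≤ Exp2_al F x ∧ Exp2_al F x ≤ 1 := by
  unfold Exp2_al
  split_ifs <;> norm_num

private theorem Exp2_be01 {N : ℕ} (F : Finset (BV N)) (x : Fin N) :
    0 ≤ Exp2_be F x ∧ Exp2_be F x ≤ 1 := by
  unfold Exp2_be
  split_ifs <;> norm_num

private noncomputable def Exp2_s {N d : ℕ} (π : Fin d → Equiv.Perm (Fin N)) (F : Finset (BV N))
    (i : Fin d) : ℝ := ∑ x, Exp2_al F x * Exp2_be F (π i x)

private theorem Exp2_card {N : ℕ} (F : Finset (BV N)) :
    (F.card : ℝ) = ∑ x, Exp2_al F x + ∑ x, Exp2_be F x := by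
  have h1 : (F.card : ℝ) = ∑ v : BV N, if v ∈ F then (1 : ℝ) else 0 := by
    rw [Finset.sum_ite_mem, Finset.univ_inter, Finset.sum_const, nsmul_eq_mul, mul_one]
  rw [h1, Fintype.sum_prod_type, Fintype.sum_bool, add_comm]
  rfl

private theorem Exp2_darts {N d : ℕ} (π : Fin d → Equiv.Perm (Fin N)) (F : Finset (BV N)) :
    (((F ×ˢ (Finset.univ : Finset (Fin d))).filter fun p => pact π p.1 p.2 ∈ F).card : ℝ) =
      2 * ∑ i, Exp2_s π F i := by
  rw [Finset.card_filter]
  push_cast
  rw [Finset.sum_product, Finset.sum_comm, Finset.mul_sum]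
  refine Finset.sum_congr rfl fun i _ => ?_
  have h1 : ∑ v ∈ F, (if pact π v i ∈ F then (1 : ℝ) else 0) =
      ∑ v : BV N, if v ∈ F then (if pact π v i ∈ F then (1 : ℝ) else 0) else 0 := by
    rw [Finset.sum_ite_mem, Finset.univ_inter]
  rw [h1, Fintype.sum_prod_type, Fintype.sum_bool]
  have h2 : ∑ y : Fin N, (if ((true, y) : BV N) ∈ F then
      (if pact π (true, y) i ∈ F then (1 : ℝ) else 0) else 0) = Exp2_s π F i := by
    rw [← Equiv.sum_comp (π i)]
    refine Finset.sum_congr rfl fun x _ => ?_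
    have h3 : pact π (true, π i x) i = (false, x) := by
      unfold pact
      simp
    rw [h3]
    unfold Exp2_al Exp2_be
    split_ifs <;> norm_num
  have h4 : ∑ x : Fin N, (if ((false, x) : BV N) ∈ F then
      (if pact π (false, x) i ∈ F then (1 : ℝ) else 0) else 0) = Exp2_s π F i := by
    refine Finset.sum_congr rfl fun x _ => ?_
    have h3 : pact π (false, x) i = (true, π i x) := by
      unfold pact
      simp
    rw [h3]
    unfold Exp2_al Exp2_be
    split_ifs <;> norm_num
  rw [h2, h4]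
  ring

private theorem Exp2_le_a {N d : ℕ} (π : Fin d → Equiv.Perm (Fin N)) (F : Finset (BV N))
    (i : Fin d) : Exp2_s π F i ≤ ∑ x, Exp2_al F x := by
  refine Finset.sum_le_sum fun x _ => ?_
  have h1 := Exp2_al01 F x
  have h2 := Exp2_be01 F (π i x)
  nlinarith [mul_nonneg h1.1 (sub_nonneg.2 h2.2)]

private theorem Exp2_le_b {N d : ℕ} (π : Fin d → Equiv.Perm (Fin N)) (F : Finset (BV N))
    (i : Fin d) : Exp2_s π F i ≤ ∑ x, Exp2_be F x := by
  rw [← Equiv.sum_comp (π i) (fun x => Exp2_be F x)]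
  refine Finset.sum_le_sum fun x _ => ?_
  have h1 := Exp2_al01 F x
  have h2 := Exp2_be01 F (π i x)
  nlinarith [mul_nonneg h2.1 (sub_nonneg.2 h1.2)]

private theorem Exp2_s_nonneg {N d : ℕ} (π : Fin d → Equiv.Perm (Fin N)) (F : Finset (BV N))
    (i : Fin d) : 0 ≤ Exp2_s π F i :=
  Finset.sum_nonneg fun x _ => mul_nonneg (Exp2_al01 F x).1 (Exp2_be01 F _).1

private theorem Exp2_cardA {N : ℕ} (F : Finset (BV N)) :
    (((Finset.univ : Finset (Fin N)).filter fun x => ((false, x) : BV N) ∈ F).card : ℝ) =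
      ∑ x, Exp2_al F x := by
  rw [Finset.card_filter]
  push_cast
  rfl

private theorem Exp2_cardB {N : ℕ} (F : Finset (BV N)) :
    (((Finset.univ : Finset (Fin N)).filter fun x => ((true, x) : BV N) ∈ F).card : ℝ) =
      ∑ x, Exp2_be F x := by
  rw [Finset.card_filter]
  push_cast
  rfl

private theorem Exp2_outA {N d : ℕ} (π : Fin d → Equiv.Perm (Fin N)) (F : Finset (BV N))
    (i : Fin d) :
    ((((Finset.univ : Finset (Fin N)).filter fun x => ((false, x) : BV N) ∈ F).filter
      fun x => π i x ∉ (Finset.univ : Finset (Fin N)).filter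
        fun x => ((true, x) : BV N) ∈ F).card : ℝ) = ∑ x, Exp2_al F x - Exp2_s π F i := by
  rw [Finset.filter_filter, Finset.card_filter, Exp2_s, ← Finset.sum_sub_distrib]
  push_cast
  refine Finset.sum_congr rfl fun x _ => ?_
  simp only [Finset.mem_filter, Finset.mem_univ, true_and]
  unfold Exp2_al Exp2_be
  by_cases h1 : ((false, x) : BV N) ∈ F <;> by_cases h2 : ((true, π i x) : BV N) ∈ F <;>
    simp [h1, h2]

private theorem Exp2_outB {N d : ℕ} (π : Fin d → Equiv.Perm (Fin N)) (F : Finset (BV N))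
    (i : Fin d) :
    ((((Finset.univ : Finset (Fin N)).filter fun x => ((true, x) : BV N) ∈ F).filter
      fun x => (fun i => (π i)⁻¹) i x ∉ (Finset.univ : Finset (Fin N)).filter
        fun x => ((false, x) : BV N) ∈ F).card : ℝ) = ∑ x, Exp2_be F x - Exp2_s π F i := by
  rw [Finset.filter_filter, Finset.card_filter, Exp2_s,
    ← Equiv.sum_comp (π i) (fun x => Exp2_be F x), ← Finset.sum_sub_distrib]
  push_cast
  rw [← Equiv.sum_comp (π i)]
  refine Finset.sum_congr rfl fun x _ => ?_
  have hx : (π i)⁻¹ (π i x) = x := Equiv.symm_apply_apply (π i) x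
  simp only [Finset.mem_filter, Finset.mem_univ, true_and, hx]
  unfold Exp2_al Exp2_be
  by_cases h1 : ((false, x) : BV N) ∈ F <;> by_cases h2 : ((true, π i x) : BV N) ∈ F <;>
    simp [h1, h2]

/-- sets of at most `N` vertices -/
private theorem Exp2_small {N : ℕ} (π : Fin 32 → Equiv.Perm (Fin N))
    (h1 : ¬ ∃ A B, BadPair π A B) (h2 : ¬ ∃ A B, BadPair (fun i => (π i)⁻¹) A B)
    (F : Finset (BV N)) (hF : F.card ≤ N) :
    (F.card : ℝ) / 16 ≤ 32 * F.card - 2 * ∑ i, Exp2_s π F i := by
  have hA := Exp2_cardA F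
  have hB := Exp2_cardB F
  have hoA := Exp2_outA π F
  have hoB := Exp2_outB π F
  set A : Finset (Fin N) := (Finset.univ : Finset (Fin N)).filter
    fun x => ((false, x) : BV N) ∈ F with hAdef
  set B : Finset (Fin N) := (Finset.univ : Finset (Fin N)).filter
    fun x => ((true, x) : BV N) ∈ F with hBdef
  have hc := Exp2_card F
  rw [← hA, ← hB] at hc
  have hsa := Exp2_le_a π F
  have hsb := Exp2_le_b π F
  simp only [← hA] at hsa hoA
  simp only [← hB] at hsb hoB
  have hcN : A.card + B.card ≤ N := by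
    have h3 : ((A.card + B.card : ℕ) : ℝ) = (F.card : ℝ) := by
      push_cast
      exact hc.symm
    have h4 : A.card + B.card = F.card := by exact_mod_cast h3
    omega
  have ha0 : (0 : ℝ) ≤ A.card := Nat.cast_nonneg _
  have hb0 : (0 : ℝ) ≤ B.card := Nat.cast_nonneg _
  have hsumc : ∀ c : ℝ, ∑ _i : Fin 32, c = 32 * c := by
    intro c
    rw [Finset.sum_const, Finset.card_univ, Fintype.card_fin, nsmul_eq_mul]
    norm_num
  rw [hc]
  rcases le_total A.card B.card with hab | hab
  · have habR : (A.card : ℝ) ≤ B.card := by exact_mod_cast hab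
    have hS : ∑ i, Exp2_s π F i ≤ 32 * A.card := by
      rw [← hsumc]
      exact Finset.sum_le_sum fun i _ => hsa i
    by_cases h10 : 10 * B.card ≤ 11 * A.card
    · rcases Nat.eq_zero_or_pos A.card with h0 | hpos
      · have h3 : B.card = 0 := by omega
        rw [h0, Nat.cast_zero] at hS
        rw [h0, h3]
        push_cast
        linarith
      · have h3 : ∃ i, A.card ≤ 16 * (A.filter fun x => π i x ∉ B).card := by
          by_contra hcon
          push Not at hcon
          exact h1 ⟨A, B, hpos, hab, h10, hcN, hcon⟩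
        obtain ⟨i, hi⟩ := h3
        have hiR : (A.card : ℝ) ≤ 16 * ((A.filter fun x => π i x ∉ B).card : ℝ) := by
          exact_mod_cast hi
        rw [hoA i] at hiR
        have h4 : (A.card : ℝ) - Exp2_s π F i ≤ ∑ j, ((A.card : ℝ) - Exp2_s π F j) :=
          Finset.single_le_sum (f := fun j => (A.card : ℝ) - Exp2_s π F j)
            (fun j _ => sub_nonneg.2 (hsa j)) (Finset.mem_univ i)
        rw [Finset.sum_sub_distrib, hsumc] at h4
        linarith
    · have h11 : (11 : ℝ) * A.card ≤ 10 * B.card := by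
        have : 11 * A.card ≤ 10 * B.card := by omega
        exact_mod_cast this
      linarith
  · have habR : (B.card : ℝ) ≤ A.card := by exact_mod_cast hab
    have hS : ∑ i, Exp2_s π F i ≤ 32 * B.card := by
      rw [← hsumc]
      exact Finset.sum_le_sum fun i _ => hsb i
    by_cases h10 : 10 * A.card ≤ 11 * B.card
    · rcases Nat.eq_zero_or_pos B.card with h0 | hpos
      · have h3 : A.card = 0 := by omega
        rw [h0, Nat.cast_zero] at hS
        rw [h0, h3]
        push_cast
        linarith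
      · have h3 : ∃ i, B.card ≤
            16 * (B.filter fun x => (fun i => (π i)⁻¹) i x ∉ A).card := by
          by_contra hcon
          push Not at hcon
          exact h2 ⟨B, A, hpos, hab, h10, by omega, hcon⟩
        obtain ⟨i, hi⟩ := h3
        have hiR : (B.card : ℝ) ≤
            16 * ((B.filter fun x => (fun i => (π i)⁻¹) i x ∉ A).card : ℝ) := by
          exact_mod_cast hi
        rw [hoB i] at hiR
        have h4 : (B.card : ℝ) - Exp2_s π F i ≤ ∑ j, ((B.card : ℝ) - Exp2_s π F j) :=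
          Finset.single_le_sum (f := fun j => (B.card : ℝ) - Exp2_s π F j)
            (fun j _ => sub_nonneg.2 (hsb j)) (Finset.mem_univ i)
        rw [Finset.sum_sub_distrib, hsumc] at h4
        linarith
    · have h11 : (11 : ℝ) * B.card ≤ 10 * A.card := by
        have : 11 * B.card ≤ 10 * A.card := by omega
        exact_mod_cast this
      linarith

private theorem Exp2_compl {N : ℕ} (π : Fin 32 → Equiv.Perm (Fin N)) (F : Finset (BV N)) :
    32 * (Fᶜ.card : ℝ) - 2 * ∑ i, Exp2_s π Fᶜ i = 32 * (F.card : ℝ) - 2 * ∑ i, Exp2_s π F i := by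
  have ha : ∀ x, Exp2_al Fᶜ x = 1 - Exp2_al F x := by
    intro x
    unfold Exp2_al
    by_cases h : ((false, x) : BV N) ∈ F <;> simp [h]
  have hb : ∀ x, Exp2_be Fᶜ x = 1 - Exp2_be F x := by
    intro x
    unfold Exp2_be
    by_cases h : ((true, x) : BV N) ∈ F <;> simp [h]
  have h1 : ∀ c : ℝ, ∑ _x : Fin N, c = N * c := by
    intro c
    rw [Finset.sum_const, Finset.card_univ, Fintype.card_fin, nsmul_eq_mul]
  have h32 : ∀ c : ℝ, ∑ _i : Fin 32, c = 32 * c := by
    intro c
    rw [Finset.sum_const, Finset.card_univ, Fintype.card_fin, nsmul_eq_mul]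
    norm_num
  have hs : ∀ i, Exp2_s π Fᶜ i = N - ∑ x, Exp2_al F x - ∑ x, Exp2_be F x + Exp2_s π F i := by
    intro i
    unfold Exp2_s
    have h2 : ∀ x, Exp2_al Fᶜ x * Exp2_be Fᶜ (π i x) =
        1 - Exp2_al F x - Exp2_be F (π i x) + Exp2_al F x * Exp2_be F (π i x) := by
      intro x
      rw [ha, hb]
      ring
    rw [Finset.sum_congr rfl fun x _ => h2 x, Finset.sum_add_distrib, Finset.sum_sub_distrib,
      Finset.sum_sub_distrib, h1, Equiv.sum_comp (π i) (fun x => Exp2_be F x), mul_one]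
  rw [Exp2_card Fᶜ, Exp2_card F, Finset.sum_congr rfl fun i _ => hs i, Finset.sum_add_distrib, h32,
    Finset.sum_congr rfl fun x _ => ha x, Finset.sum_congr rfl fun x _ => hb x,
    Finset.sum_sub_distrib, Finset.sum_sub_distrib, h1, mul_one]
  ring

/-- deterministic part: `F = (false × A) ∪ (true × B)`, darts(F) = `2 f`,
`f = Σ_i |{x ∈ A : π_i x ∈ B}|`.  If `|F| ≤ N`: case `a ≤ b`: if `10 b ≤ 11 a` some `i` has
`16 |{x ∈ A : π_i x ∉ B}| ≥ a`, so `2 f ≤ 64 a - a/8`; otherwise `2 f ≤ 64 a ≤ (32 - 1/16)(a + b)`;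
case `b < a`: the same for the inverse permutations.  If `|F| > N`: complement,
`32|F| - darts F = 32|Fᶜ| - darts Fᶜ ≥ |Fᶜ|/16 ≥ |F|/304`. -/
theorem pexp_of_noBad {N : ℕ} (π : Fin 32 → Equiv.Perm (Fin N))
    (h1 : ¬ ∃ A B, BadPair π A B) (h2 : ¬ ∃ A B, BadPair (fun i => (π i)⁻¹) A B) :
    PExp π (1 / 304) := by
  intro F hF
  rw [Exp2_darts]
  push_cast
  rcases Nat.lt_or_ge N F.card with hN | hN
  · have hcc : (Fᶜ.card : ℝ) = 2 * N - F.card := by
      have h3 : Fᶜ.card + F.card = 2 * N := by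
        rw [Finset.card_compl_add_card, Fintype.card_prod, Fintype.card_bool, Fintype.card_fin]
      have h4 : ((Fᶜ.card + F.card : ℕ) : ℝ) = ((2 * N : ℕ) : ℝ) := by rw [h3]
      push_cast at h4
      linarith
    have hNR : (N : ℝ) ≤ F.card := by exact_mod_cast hN.le
    have h5 : Fᶜ.card ≤ N := by
      have : (Fᶜ.card : ℝ) ≤ N := by linarith
      exact_mod_cast this
    have h6 := Exp2_small π h1 h2 Fᶜ h5
    rw [Exp2_compl, hcc] at h6
    linarith
  · have h6 := Exp2_small π h1 h2 F hN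
    have h7 : (0 : ℝ) ≤ F.card := Nat.cast_nonneg _
    linarith

end P089
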