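import Mathlib

/-!
# P089 B-a: counting permutations
-/

namespace P089

open scoped Classical

/-- permutations fixing `s` pointwise -/
theorem Perm_fix_id {N : ℕ} (s : Finset (Fin N)) :
    (Finset.univ.filter fun π : Equiv.Perm (Fin N) => ∀ x ∈ s, π x = x).card =
      (N - s.card).factorial := by
  have e := Equiv.Perm.subtypeEquivSubtypePerm (fun a : Fin N => a ∉ s)
  have h1 := Fintype.card_congr e
  rw [Fintype.card_perm] at h1
  have h2 : Fintype.card {a : Fin N // a ∉ s} = N - s.card := by
    rw [Fintype.card_subtype_compl, Fintype.card_fin, Fintype.card_coe]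
  rw [h2] at h1
  rw [h1, Fintype.card_subtype]
  congr 1
  ext π
  simp

/-- permutations with prescribed values on `s`: if one such `π₀` exists, `π ↦ π₀⁻¹ π` fixes `s`
pointwise (`Equiv.Perm.subtypeEquivSubtypePerm`, `Fintype.card_perm`) -/
theorem perm_fix_count {N : ℕ} (s : Finset (Fin N)) (f : Fin N → Fin N) :
    (Finset.univ.filter fun π : Equiv.Perm (Fin N) => ∀ x ∈ s, π x = f x).card ≤
      (N - s.card).factorial := by
  rcases (Finset.univ.filter fun π : Equiv.Perm (Fin N) => ∀ x ∈ s, π x = f x).eq_empty_or_nonempty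
    with h | ⟨π₀, h₀⟩
  · rw [h, Finset.card_empty]
    exact Nat.zero_le _
  · rw [← Perm_fix_id s]
    have h₀' : ∀ x ∈ s, π₀ x = f x := (Finset.mem_filter.1 h₀).2
    refine Finset.card_le_card_of_injOn (fun π => π₀⁻¹ * π) ?_ ?_
    · intro π hπ
      have hπ' : ∀ x ∈ s, π x = f x := (Finset.mem_filter.1 (Finset.mem_coe.1 hπ)).2
      refine Finset.mem_coe.2 (Finset.mem_filter.2 ⟨Finset.mem_univ _, fun x hx => ?_⟩)
      rw [Equiv.Perm.mul_apply, hπ' x hx, ← h₀' x hx]
      exact π₀.symm_apply_apply x
    · intro π _ π' _ h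
      exact mul_left_cancel h

/-- permutations whose graph contains `T` -/
theorem perm_rel_count {N : ℕ} (T : Finset (Fin N × Fin N)) :
    (Finset.univ.filter fun π : Equiv.Perm (Fin N) => ∀ p ∈ T, π p.1 = p.2).card ≤
      (N - T.card).factorial := by
  rcases (Finset.univ.filter fun π : Equiv.Perm (Fin N) =>
    ∀ p ∈ T, π p.1 = p.2).eq_empty_or_nonempty with h | ⟨π₀, h₀⟩
  · rw [h, Finset.card_empty]
    exact Nat.zero_le _
  · have h₀' : ∀ p ∈ T, π₀ p.1 = p.2 := (Finset.mem_filter.1 h₀).2
    have hc : (T.image Prod.fst).card = T.card := by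
      refine Finset.card_image_of_injOn fun p hp q hq hpq => ?_
      refine Prod.ext hpq ?_
      rw [← h₀' p hp, ← h₀' q hq, hpq]
    rw [← hc]
    refine le_trans (Finset.card_le_card ?_) (perm_fix_count (T.image Prod.fst) π₀)
    intro π hπ
    have hπ' : ∀ p ∈ T, π p.1 = p.2 := (Finset.mem_filter.1 hπ).2
    refine Finset.mem_filter.2 ⟨Finset.mem_univ _, fun x hx => ?_⟩
    obtain ⟨p, hp, rfl⟩ := Finset.mem_image.1 hx
    rw [hπ' p hp, h₀' p hp]

theorem Perm_into_emb {N : ℕ} (s B : Finset (Fin N)) :
    (Finset.univ.filter fun π : Equiv.Perm (Fin N) => ∀ x ∈ s, π x ∈ B).card ≤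
      (N - s.card).factorial * B.card.descFactorial s.card := by
  let φ : {π : Equiv.Perm (Fin N) // ∀ x ∈ s, π x ∈ B} → (s ↪ B) := fun π =>
    ⟨fun x => ⟨π.1 x.1, π.2 x.1 x.2⟩, fun x y h => by
      have h1 : π.1 x.1 = π.1 y.1 := congrArg Subtype.val h
      exact Subtype.ext (π.1.injective h1)⟩
  have h1 : (Finset.univ : Finset {π : Equiv.Perm (Fin N) // ∀ x ∈ s, π x ∈ B}).card ≤
      (N - s.card).factorial * (Finset.univ : Finset (s ↪ B)).card := by
    refine Finset.card_le_mul_card_image_of_maps_to (f := φ) (fun a _ => Finset.mem_univ _) _ ?_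
    intro g _
    refine le_trans ?_ (perm_fix_count s
      (fun x => if h : x ∈ s then (g ⟨x, h⟩ : Fin N) else x))
    refine Finset.card_le_card_of_injOn (fun π => π.1) ?_ ?_
    · intro π hπ
      have hπ' : φ π = g := (Finset.mem_filter.1 (Finset.mem_coe.1 hπ)).2
      refine Finset.mem_coe.2 (Finset.mem_filter.2 ⟨Finset.mem_univ _, fun x hx => ?_⟩)
      rw [dif_pos hx, ← hπ']
      rfl
    · intro π _ π' _ h
      exact Subtype.ext h
  rw [Finset.card_univ, Finset.card_univ, Fintype.card_embedding_eq, Fintype.card_coe,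
    Fintype.card_coe, Fintype.card_subtype] at h1
  exact h1

theorem Perm_desc (N b : ℕ) (h : b ≤ N) (k : ℕ) :
    b.descFactorial k * N ^ k ≤ N.descFactorial k * b ^ k := by
  induction k with
  | zero => simp
  | succ k ih =>
    rw [Nat.descFactorial_succ, Nat.descFactorial_succ, pow_succ, pow_succ]
    have h1 : (b - k) * N ≤ (N - k) * b := by
      rw [Nat.sub_mul, Nat.sub_mul, Nat.mul_comm N b]
      exact Nat.sub_le_sub_left (Nat.mul_le_mul_left k h) _
    calc (b - k) * b.descFactorial k * (N ^ k * N)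
        = (b - k) * N * (b.descFactorial k * N ^ k) := by ring
      _ ≤ (N - k) * b * (N.descFactorial k * b ^ k) := Nat.mul_le_mul h1 ih
      _ = (N - k) * N.descFactorial k * (b ^ k * b) := by ring

/-- permutations mapping `s` into `B`: sum of `perm_fix_count` over the injections `s → B`, number
`|B|.descFactorial |s|`; then `|B|.descFactorial k * N ^ k ≤ N.descFactorial k * |B| ^ k` -/
theorem perm_into_count {N : ℕ} (s B : Finset (Fin N)) :
    (Finset.univ.filter fun π : Equiv.Perm (Fin N) => ∀ x ∈ s, π x ∈ B).card * N ^ s.card ≤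
      N.factorial * B.card ^ s.card := by
  have hs : s.card ≤ N := by simpa using Finset.card_le_univ s
  have hB : B.card ≤ N := by simpa using Finset.card_le_univ B
  calc (Finset.univ.filter fun π : Equiv.Perm (Fin N) => ∀ x ∈ s, π x ∈ B).card * N ^ s.card
      ≤ (N - s.card).factorial * B.card.descFactorial s.card * N ^ s.card :=
        Nat.mul_le_mul_right _ (Perm_into_emb s B)
    _ = (N - s.card).factorial * (B.card.descFactorial s.card * N ^ s.card) := by ring
    _ ≤ (N - s.card).factorial * (N.descFactorial s.card * B.card ^ s.card) :=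
        Nat.mul_le_mul_left _ (Perm_desc N B.card hB s.card)
    _ = (N - s.card).factorial * N.descFactorial s.card * B.card ^ s.card := by ring
    _ = N.factorial * B.card ^ s.card := by rw [Nat.factorial_mul_descFactorial hs]

end P089
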