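import Vale.Agent.Lib.P089.B.Ba.Perm

/-!
# P089 B-a: permutations mapping most of `A` into `B`
-/

namespace P089

open scoped Classical

/-- `Σ_{T ⊆ A} 16^(a - |T|) = 17^a`, and `(16^(a-|T|))^16 ≥ 16^(15 a)` for the sets counted here, so
`M^16 * 16^(15 a) ≤ 17^(16 a) ≤ 43^a * 16^(15 a)` since `17^16 ≤ 43 * 16^15` -/
theorem tail_count {N : ℕ} (A : Finset (Fin N)) :
    (A.powerset.filter fun T => 16 * T.card < A.card).card ^ 16 ≤ 43 ^ A.card := by
  rcases (A.powerset.filter fun T => 16 * T.card < A.card).eq_empty_or_nonempty with h0 | ⟨T0, hT0⟩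
  · rw [h0, Finset.card_empty, zero_pow (by norm_num)]
    exact Nat.zero_le _
  have ha : 0 < A.card := by
    have := (Finset.mem_filter.1 hT0).2
    omega
  obtain ⟨e, he⟩ : ∃ e, e = A.card - (A.card - 1) / 16 := ⟨_, rfl⟩
  have he1 : 15 * A.card ≤ 16 * e := by omega
  have h1 : (A.powerset.filter fun T => 16 * T.card < A.card).card * 16 ^ e ≤ 17 ^ A.card := by
    calc (A.powerset.filter fun T => 16 * T.card < A.card).card * 16 ^ e
        = ∑ T ∈ A.powerset.filter (fun T => 16 * T.card < A.card), 16 ^ e := by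
          rw [Finset.sum_const, smul_eq_mul]
      _ ≤ ∑ T ∈ A.powerset.filter (fun T => 16 * T.card < A.card), 16 ^ (A.card - T.card) := by
          refine Finset.sum_le_sum fun T hT => Nat.pow_le_pow_right (by norm_num) ?_
          have := (Finset.mem_filter.1 hT).2
          omega
      _ ≤ ∑ T ∈ A.powerset, 16 ^ (A.card - T.card) :=
          Finset.sum_le_sum_of_subset (Finset.filter_subset _ _)
      _ = 17 ^ A.card := by
          have := Finset.sum_pow_mul_eq_add_pow (1 : ℕ) 16 A
          simpa using this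
  have h2 : (A.powerset.filter fun T => 16 * T.card < A.card).card ^ 16 * 16 ^ (16 * e) ≤
      17 ^ (16 * A.card) := by
    have := Nat.pow_le_pow_left h1 16
    rw [mul_pow, ← pow_mul, ← pow_mul, Nat.mul_comm e 16, Nat.mul_comm A.card 16] at this
    exact this
  have h3 : (16 : ℕ) ^ (15 * A.card) ≤ 16 ^ (16 * e) := Nat.pow_le_pow_right (by norm_num) he1
  have h4 : (17 : ℕ) ^ (16 * A.card) ≤ 43 ^ A.card * 16 ^ (15 * A.card) := by
    rw [pow_mul, pow_mul, ← mul_pow]
    exact Nat.pow_le_pow_left (by norm_num) _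
  have h5 : (0 : ℕ) < 16 ^ (15 * A.card) := by positivity
  refine Nat.le_of_mul_le_mul_right ?_ h5
  calc (A.powerset.filter fun T => 16 * T.card < A.card).card ^ 16 * 16 ^ (15 * A.card)
      ≤ (A.powerset.filter fun T => 16 * T.card < A.card).card ^ 16 * 16 ^ (16 * e) :=
        Nat.mul_le_mul_left _ h3
    _ ≤ 17 ^ (16 * A.card) := h2
    _ ≤ 43 ^ A.card * 16 ^ (15 * A.card) := h4

/-- one set `T` of exceptional points -/
private theorem tail_one {N : ℕ} (A B T : Finset (Fin N)) (hTA : T ⊆ A)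
    (hT : 16 * T.card < A.card) :
    (Finset.univ.filter fun π : Equiv.Perm (Fin N) => ∀ x ∈ A \ T, π x ∈ B).card ^ 16 *
      N ^ (15 * A.card) ≤ N.factorial ^ 16 * B.card ^ (15 * A.card) := by
  have hN : 0 < N := by
    rcases Nat.eq_zero_or_pos N with h | h
    · subst h
      have : A.card = 0 := by
        rw [Finset.card_eq_zero]
        exact Finset.eq_empty_of_isEmpty A
      omega
    · exact h
  have hcard : (A \ T).card = A.card - T.card := Finset.card_sdiff_of_subset hTA
  have hB : B.card ≤ N := by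
    have := Finset.card_le_univ B
    rwa [Fintype.card_fin] at this
  have h1 := Nat.pow_le_pow_left (perm_into_count (A \ T) B) 16
  rw [mul_pow, mul_pow, ← pow_mul, ← pow_mul] at h1
  obtain ⟨r, hr⟩ : ∃ r, (A \ T).card * 16 = 15 * A.card + r :=
    ⟨(A \ T).card * 16 - 15 * A.card, by omega⟩
  rw [hr, pow_add, pow_add] at h1
  have h2 : 0 < N ^ r := by positivity
  refine Nat.le_of_mul_le_mul_right ?_ h2
  calc (Finset.univ.filter fun π : Equiv.Perm (Fin N) => ∀ x ∈ A \ T, π x ∈ B).card ^ 16 *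
        N ^ (15 * A.card) * N ^ r
      = (Finset.univ.filter fun π : Equiv.Perm (Fin N) => ∀ x ∈ A \ T, π x ∈ B).card ^ 16 *
        (N ^ (15 * A.card) * N ^ r) := by ring
    _ ≤ N.factorial ^ 16 * (B.card ^ (15 * A.card) * B.card ^ r) := h1
    _ ≤ N.factorial ^ 16 * (B.card ^ (15 * A.card) * N ^ r) :=
        Nat.mul_le_mul_left _ (Nat.mul_le_mul_left _ (Nat.pow_le_pow_left hB r))
    _ = N.factorial ^ 16 * B.card ^ (15 * A.card) * N ^ r := by ring

/-- union bound over `T = {x ∈ A | π x ∉ B}`: `π` maps `A \ T` into `B`, and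
`16 |A \ T| ≥ 15 a`, so (`perm_into_count`) each term to the power 16 is at most
`(N!)^16 (|B|/N)^(15 a)` -/
theorem perm_almost_count {N : ℕ} (A B : Finset (Fin N)) :
    (Finset.univ.filter fun π : Equiv.Perm (Fin N) =>
      16 * (A.filter fun x => π x ∉ B).card < A.card).card ^ 16 * N ^ (15 * A.card) ≤
      N.factorial ^ 16 * 43 ^ A.card * B.card ^ (15 * A.card) := by
  have hsub : (Finset.univ.filter fun π : Equiv.Perm (Fin N) =>
      16 * (A.filter fun x => π x ∉ B).card < A.card) ⊆
      (A.powerset.filter fun T => 16 * T.card < A.card).biUnion fun T =>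
        Finset.univ.filter fun π : Equiv.Perm (Fin N) => ∀ x ∈ A \ T, π x ∈ B := by
    intro π hπ
    rw [Finset.mem_biUnion]
    refine ⟨A.filter fun x => π x ∉ B, ?_, ?_⟩
    · rw [Finset.mem_filter, Finset.mem_powerset]
      exact ⟨Finset.filter_subset _ _, (Finset.mem_filter.1 hπ).2⟩
    · rw [Finset.mem_filter]
      refine ⟨Finset.mem_univ _, fun x hx => ?_⟩
      rw [Finset.mem_sdiff, Finset.mem_filter] at hx
      by_contra hn
      exact hx.2 ⟨hx.1, hn⟩
  have h1 : (Finset.univ.filter fun π : Equiv.Perm (Fin N) =>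
      16 * (A.filter fun x => π x ∉ B).card < A.card).card ≤
      ∑ T ∈ A.powerset.filter (fun T => 16 * T.card < A.card),
        (Finset.univ.filter fun π : Equiv.Perm (Fin N) => ∀ x ∈ A \ T, π x ∈ B).card :=
    (Finset.card_le_card hsub).trans Finset.card_biUnion_le
  rcases (A.powerset.filter fun T => 16 * T.card < A.card).eq_empty_or_nonempty with h0 | hne
  · rw [h0, Finset.sum_empty, Nat.le_zero] at h1
    rw [h1, zero_pow (by norm_num), Nat.zero_mul]
    exact Nat.zero_le _
  obtain ⟨T, hT, hmax⟩ := Finset.exists_max_image _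
    (fun T => (Finset.univ.filter fun π : Equiv.Perm (Fin N) => ∀ x ∈ A \ T, π x ∈ B).card) hne
  have h2 := Finset.sum_le_card_nsmul _ _ _ hmax
  rw [smul_eq_mul] at h2
  have h3 := Nat.pow_le_pow_left (h1.trans h2) 16
  rw [mul_pow] at h3
  have hT' := Finset.mem_filter.1 hT
  have h4 := tail_one A B T (Finset.mem_powerset.1 hT'.1) hT'.2
  calc (Finset.univ.filter fun π : Equiv.Perm (Fin N) =>
      16 * (A.filter fun x => π x ∉ B).card < A.card).card ^ 16 * N ^ (15 * A.card)
      ≤ (A.powerset.filter fun T => 16 * T.card < A.card).card ^ 16 *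
        (Finset.univ.filter fun π : Equiv.Perm (Fin N) => ∀ x ∈ A \ T, π x ∈ B).card ^ 16 *
        N ^ (15 * A.card) := Nat.mul_le_mul_right _ h3
    _ = (A.powerset.filter fun T => 16 * T.card < A.card).card ^ 16 *
        ((Finset.univ.filter fun π : Equiv.Perm (Fin N) => ∀ x ∈ A \ T, π x ∈ B).card ^ 16 *
        N ^ (15 * A.card)) := by ring
    _ ≤ 43 ^ A.card * (N.factorial ^ 16 * B.card ^ (15 * A.card)) :=
        Nat.mul_le_mul (tail_count A) h4
    _ = N.factorial ^ 16 * 43 ^ A.card * B.card ^ (15 * A.card) := by ring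

end P089
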